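import Vale.Agent.P098.Six.S15.Root

/-!
# P098, six dimensions: checked pieces of the tree
-/

namespace Vale.Agent.P098.Six.S15

/-- A piece of the tree. -/
noncomputable def tree24 : Tree LeafX :=
  .s1
    (.leaf (.skip 0 8))
    (.s2
    (.s0
    (.s0
    (.leaf (.box ⟨121, 1, -512, 10, 12, 66, 309878, 0, 0, 0, 0, 0, 0⟩ ⟨0, 0, 0, 0, 0, 0, 338620, 0, 0, 0, 0, 0, 0⟩ ⟨0, 0, 0, 0, 0, 0, 338620, 0, 0, 0, 0, 0, 0⟩ ⟨0, 0, 0, 0, 0, 0, 373238, 0, 0, 0, 0, 0, 0⟩ ⟨0, 0, 0, 0, 0, 0, 373238, 0, 0, 0, 0, 0, 0⟩ ⟨125, 1, -512, 8, 10, 70, 415739, 0, 0, 0, 0, 0, 0⟩))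
    (.leaf (.box ⟨180, 2, -512, 12, 12, 86, 406026, 0, 0, 0, 0, 0, 0⟩ ⟨0, 0, 0, 0, 0, 0, 442757, 0, 0, 0, 0, 0, 0⟩ ⟨0, 0, 0, 0, 0, 0, 442757, 0, 0, 0, 0, 0, 0⟩ ⟨0, 0, 0, 0, 0, 0, 486793, 0, 0, 0, 0, 0, 0⟩ ⟨0, 0, 0, 0, 0, 0, 486793, 0, 0, 0, 0, 0, 0⟩ ⟨219, 3, -512, 11, 10, 89, 540556, 0, 0, 0, 0, 0, 0⟩)))
    (.s0
    (.s2
    (.leaf (.box ⟨136, 2, -512, 9, 13, 106, 537207, 0, 0, 0, 0, 0, 0⟩ ⟨0, 0, 0, 0, 0, 0, 579127, 0, 0, 0, 0, 0, 0⟩ ⟨0, 0, 0, 0, 0, 0, 579127, 0, 0, 0, 0, 0, 0⟩ ⟨0, 0, 0, 0, 0, 0, 628142, 0, 0, 0, 0, 0, 0⟩ ⟨0, 0, 0, 0, 0, 0, 628142, 0, 0, 0, 0, 0, 0⟩ ⟨188, 3, -512, 8, 11, 111, 686220, 0, 0, 0, 0, 0, 0⟩))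
    (.leaf (.box ⟨268, 2, -512, 11, 10, 136, 521172, 0, 0, 0, 0, 0, 0⟩ ⟨0, 0, 0, 0, 0, 0, 568981, 0, 0, 0, 0, 0, 0⟩ ⟨0, 0, 0, 0, 0, 0, 568981, 0, 0, 0, 0, 0, 0⟩ ⟨0, 0, 0, 0, 0, 0, 626446, 0, 0, 0, 0, 0, 0⟩ ⟨0, 0, 0, 0, 0, 0, 626446, 0, 0, 0, 0, 0, 0⟩ ⟨383, 3, -512, 11, 8, 143, 696823, 0, 0, 0, 0, 0, 0⟩)))
    (.leaf (.skip 0 8))))
    (.s2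
    (.s0
    (.s0
    (.leaf (.box ⟨188, 0, -512, 7, 8, 78, 313783, 0, 0, 0, 0, 0, 0⟩ ⟨0, 0, 0, 0, 0, 0, 347465, 0, 0, 0, 0, 0, 0⟩ ⟨0, 0, 0, 0, 0, 0, 347465, 0, 0, 0, 0, 0, 0⟩ ⟨0, 0, 0, 0, 0, 0, 389247, 0, 0, 0, 0, 0, 0⟩ ⟨0, 0, 0, 0, 0, 0, 389247, 0, 0, 0, 0, 0, 0⟩ ⟨205, 0, -628, 6, 7, 97, 442450, 0, 0, 0, 0, 0, 0⟩))
    (.leaf (.box ⟨414, 0, -512, 15, 5, 124, 401401, 0, 0, 0, 0, 0, 0⟩ ⟨0, 0, 0, 0, 0, 0, 444294, 0, 0, 0, 0, 0, 0⟩ ⟨0, 0, 0, 0, 0, 0, 444294, 0, 0, 0, 0, 0, 0⟩ ⟨0, 0, 0, 0, 0, 0, 497450, 0, 0, 0, 0, 0, 0⟩ ⟨0, 0, 0, 0, 0, 0, 497450, 0, 0, 0, 0, 0, 0⟩ ⟨354, 0, -512, 10, 4, 116, 565054, 0, 0, 0, 0, 0, 0⟩)))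
    (.s0
    (.leaf (.box ⟨512, 1, -172, 17, -1, 112, 505991, 0, 0, 0, 0, 0, 0⟩ ⟨0, 0, 0, 0, 0, 0, 559881, 0, 0, 0, 0, 0, 0⟩ ⟨0, 0, 0, 0, 0, 0, 559881, 0, 0, 0, 0, 0, 0⟩ ⟨0, 0, 0, 0, 0, 0, 626618, 0, 0, 0, 0, 0, 0⟩ ⟨0, 0, 0, 0, 0, 0, 626618, 0, 0, 0, 0, 0, 0⟩ ⟨512, 1, -200, 12, -1, 107, 711417, 0, 0, 0, 0, 0, 0⟩))
    (.leaf (.skip 0 8))))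
    (.s0
    (.s2
    (.leaf (.box ⟨512, -2, -324, 22, -1, 91, 319143, 0, 0, 0, 0, 4506535018, 0⟩ ⟨0, 0, 0, 0, 0, 0, 356406, 0, 0, 0, 0, 0, 0⟩ ⟨0, 0, 0, 0, 0, 0, 356406, 0, 0, 0, 0, 0, 0⟩ ⟨0, 0, 0, 0, 0, 0, 403519, 0, 0, 0, 0, 0, 0⟩ ⟨0, 0, 0, 0, 0, 0, 403519, 0, 0, 0, 0, 0, 0⟩ ⟨512, -2, -505, 18, 0, 112, 464986, 0, 0, 0, 0, 0, 0⟩))
    (.leaf (.skip 8 0)))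
    (.leaf (.skip 8 0)))))

/-- A piece of the tree. -/
noncomputable def tree25 : Tree LeafX :=
  .s2
    (.s0
    (.s0
    (.leaf (.box ⟨121, 0, -512, 11, 10, 69, 244005, 0, 0, 0, 0, 0, 0⟩ ⟨0, 0, 0, 0, 0, 0, 274147, 0, 0, 0, 0, 0, 0⟩ ⟨0, 0, 0, 0, 0, 0, 274147, 0, 0, 0, 0, 0, 0⟩ ⟨0, 0, 0, 0, 0, 0, 312785, 0, 0, 0, 0, 0, 0⟩ ⟨0, 0, 0, 0, 0, 0, 312785, 0, 0, 0, 0, 0, 0⟩ ⟨116, 0, -512, 8, 7, 74, 364100, 0, 0, 0, 0, 0, 0⟩))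
    (.s2
    (.leaf (.box ⟨112, 1, -512, 9, 10, 84, 325554, 0, 0, 0, 0, 0, 0⟩ ⟨0, 0, 0, 0, 0, 0, 363835, 0, 0, 0, 0, 0, 0⟩ ⟨0, 0, 0, 0, 0, 0, 363835, 0, 0, 0, 0, 0, 0⟩ ⟨0, 0, 0, 0, 0, 0, 412318, 0, 0, 0, 0, 0, 0⟩ ⟨0, 0, 0, 0, 0, 0, 412318, 0, 0, 0, 0, 0, 0⟩ ⟨103, 1, -512, 7, 7, 86, 475709, 0, 0, 0, 0, 0, 0⟩))
    (.leaf (.box ⟨148, 0, -512, 9, 7, 93, 349132, 0, 0, 0, 0, 0, 0⟩ ⟨0, 0, 0, 0, 0, 0, 390491, 0, 0, 0, 0, 0, 0⟩ ⟨0, 0, 0, 0, 0, 0, 390491, 0, 0, 0, 0, 0, 0⟩ ⟨0, 0, 0, 0, 0, 0, 442965, 0, 0, 0, 0, 0, 0⟩ ⟨0, 0, 0, 0, 0, 0, 442965, 0, 0, 0, 0, 0, 0⟩ ⟨148, 0, -534, 6, 5, 96, 511731, 0, 0, 0, 0, 0, 0⟩))))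
    (.s2
    (.s0
    (.leaf (.box ⟨133, 1, -512, 11, 8, 109, 438476, 0, 0, 0, 0, 0, 0⟩ ⟨0, 0, 0, 0, 0, 0, 486206, 0, 0, 0, 0, 0, 0⟩ ⟨0, 0, 0, 0, 0, 0, 486206, 0, 0, 0, 0, 0, 0⟩ ⟨0, 0, 0, 0, 0, 0, 545597, 0, 0, 0, 0, 0, 0⟩ ⟨0, 0, 0, 0, 0, 0, 545597, 0, 0, 0, 0, 0, 0⟩ ⟨149, 1, -512, 9, 5, 108, 621515, 0, 0, 0, 0, 0, 0⟩))
    (.s2
    (.leaf (.box ⟨140, 2, -512, 10, 6, 141, 588044, 0, 0, 0, 0, 0, 0⟩ ⟨0, 0, 0, 0, 0, 0, 646315, 0, 0, 0, 0, 0, 0⟩ ⟨0, 0, 0, 0, 0, 0, 646315, 0, 0, 0, 0, 0, 0⟩ ⟨0, 0, 0, 0, 0, 0, 717403, 0, 0, 0, 0, 0, 0⟩ ⟨0, 0, 0, 0, 0, 0, 717403, 0, 0, 0, 0, 0, 0⟩ ⟨167, 2, -512, 9, 4, 136, 806062, 0, 0, 0, 0, 0, 0⟩))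
    (.leaf (.box ⟨166, 2, -512, 13, 3, 160, 601389, 0, 0, 0, 0, 0, 0⟩ ⟨0, 0, 0, 0, 0, 0, 662035, 0, 0, 0, 0, 0, 0⟩ ⟨0, 0, 0, 0, 0, 0, 662035, 0, 0, 0, 0, 0, 0⟩ ⟨0, 0, 0, 0, 0, 0, 736284, 0, 0, 0, 0, 0, 0⟩ ⟨0, 0, 0, 0, 0, 0, 736284, 0, 0, 0, 0, 0, 0⟩ ⟨235, 2, -512, 9, 2, 150, 829291, 0, 0, 0, 0, 0, 0⟩))))
    (.s0
    (.leaf (.box ⟨252, 1, -512, 13, 4, 132, 465487, 0, 0, 0, 0, 0, 0⟩ ⟨0, 0, 0, 0, 0, 0, 517135, 0, 0, 0, 0, 0, 0⟩ ⟨0, 0, 0, 0, 0, 0, 517135, 0, 0, 0, 0, 0, 0⟩ ⟨0, 0, 0, 0, 0, 0, 581673, 0, 0, 0, 0, 0, 0⟩ ⟨0, 0, 0, 0, 0, 0, 581673, 0, 0, 0, 0, 0, 0⟩ ⟨266, 1, -512, 9, 3, 122, 664617, 0, 0, 0, 0, 0, 0⟩))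
    (.s2
    (.leaf (.box ⟨262, 2, -512, 16, 0, 194, 614146, 0, 0, 0, 0, 0, 0⟩ ⟨0, 0, 0, 0, 0, 0, 676013, 0, 0, 0, 0, 0, 0⟩ ⟨0, 0, 0, 0, 0, 0, 676013, 0, 0, 0, 0, 0, 0⟩ ⟨0, 0, 0, 0, 0, 0, 751741, 0, 0, 0, 0, 0, 0⟩ ⟨0, 0, 0, 0, 0, 0, 751741, 0, 0, 0, 0, 0, 0⟩ ⟨365, 1, -512, 11, 0, 172, 846575, 0, 0, 0, 0, 0, 0⟩))
    (.leaf (.box ⟨512, 1, -499, 19, -6, 257, 625780, 0, 0, 0, 0, 0, 0⟩ ⟨0, 0, 0, 0, 0, 0, 687568, 0, 0, 0, 0, 0, 0⟩ ⟨0, 0, 0, 0, 0, 0, 687568, 0, 0, 0, 0, 0, 0⟩ ⟨0, 0, 0, 0, 0, 0, 762893, 0, 0, 0, 0, 0, 0⟩ ⟨0, 0, 0, 0, 0, 0, 762893, 0, 0, 0, 0, 0, 0⟩ ⟨512, 1, -462, 11, -3, 187, 856753, 0, 0, 0, 0, 0, 0⟩))))))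
    (.s0
    (.s2
    (.s2
    (.leaf (.box ⟨239, 0, -512, 8, 6, 90, 284327, 0, 0, 0, 0, 0, 0⟩ ⟨0, 0, 0, 0, 0, 0, 317962, 0, 0, 0, 0, 0, 0⟩ ⟨0, 0, 0, 0, 0, 0, 317962, 0, 0, 0, 0, 0, 0⟩ ⟨0, 0, 0, 0, 0, 0, 360621, 0, 0, 0, 0, 0, 0⟩ ⟨0, 0, 0, 0, 0, 0, 360621, 0, 0, 0, 0, 0, 0⟩ ⟨237, 0, -590, 6, 5, 101, 416501, 0, 0, 0, 0, 0, 0⟩))
    (.leaf (.box ⟨331, -1, -512, 14, 5, 96, 296256, 0, 0, 0, 0, 0, 0⟩ ⟨0, 0, 0, 0, 0, 0, 330294, 0, 0, 0, 0, 0, 0⟩ ⟨0, 0, 0, 0, 0, 0, 330294, 0, 0, 0, 0, 0, 0⟩ ⟨0, 0, 0, 0, 0, 0, 373167, 0, 0, 0, 0, 0, 0⟩ ⟨0, 0, 0, 0, 0, 0, 373167, 0, 0, 0, 0, 0, 0⟩ ⟨251, 0, -512, 7, 3, 91, 428831, 0, 0, 0, 0, 0, 0⟩)))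
    (.leaf (.box ⟨512, -2, -367, 22, 1, 79, 307919, 0, 0, 0, 0, 4883564871, 0⟩ ⟨0, 0, 0, 0, 0, 0, 342979, 0, 0, 0, 0, 0, 0⟩ ⟨0, 0, 0, 0, 0, 0, 342979, 0, 0, 0, 0, 0, 0⟩ ⟨0, 0, 0, 0, 0, 0, 387049, 0, 0, 0, 0, 0, 0⟩ ⟨0, 0, 0, 0, 0, 0, 387049, 0, 0, 0, 0, 0, 0⟩ ⟨377, -1, -512, 16, 1, 97, 444112, 0, 0, 0, 0, 5140040144, 0⟩)))
    (.s2
    (.s2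
    (.leaf (.box ⟨512, 1, -249, 25, -4, 130, 492220, 0, 0, 0, 0, 0, 0⟩ ⟨0, 0, 0, 0, 0, 0, 544927, 0, 0, 0, 0, 0, 0⟩ ⟨0, 0, 0, 0, 0, 0, 544927, 0, 0, 0, 0, 0, 0⟩ ⟨0, 0, 0, 0, 0, 0, 610274, 0, 0, 0, 0, 0, 0⟩ ⟨0, 0, 0, 0, 0, 0, 610274, 0, 0, 0, 0, 0, 0⟩ ⟨512, 0, -301, 16, -3, 112, 693430, 0, 0, 0, 0, 0, 0⟩))
    (.leaf (.box ⟨512, 0, -85, 19, -6, 85, 500730, 0, 0, 0, 0, 10972369863, 0⟩ ⟨0, 0, 0, 0, 0, 0, 554783, 0, 0, 0, 0, 0, 0⟩ ⟨0, 0, 0, 0, 0, 0, 554783, 0, 0, 0, 0, 0, 0⟩ ⟨0, 0, 0, 0, 0, 0, 621917, 0, 0, 0, 0, 0, 0⟩ ⟨0, 0, 0, 0, 0, 0, 621917, 0, 0, 0, 0, 0, 0⟩ ⟨512, 0, -177, 14, -4, 82, 707536, 0, 0, 0, 0, 16645956829, 0⟩)))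
    (.leaf (.skip 8 0))))

/-- A piece of the tree. -/
noncomputable def tree26 : Tree LeafX :=
  .s1
    (.leaf (.skip 0 8))
    (.s2
    (.s0
    (.s2
    (.s2
    (.s0
    (.s1
    (.leaf (.box ⟨185, 2, -512, 11, 4, 197, 832046, 0, 0, 0, 0, 0, 11744632372⟩ ⟨0, 0, 0, 0, 0, 0, 893259, 0, 0, 0, 0, 0, 0⟩ ⟨0, 0, 0, 0, 0, 0, 893259, 0, 0, 0, 0, 0, 0⟩ ⟨0, 0, 0, 0, 0, 0, 964193, 0, 0, 0, 0, 0, 0⟩ ⟨0, 0, 0, 0, 0, 0, 964193, 0, 0, 0, 0, 0, 0⟩ ⟨254, 3, -512, 9, 3, 201, 1047365, 0, 0, 0, 0, 0, 0⟩))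
    (.s0
    (.leaf (.box ⟨101, 1, -512, 7, -1, 181, 779493, 0, 0, 0, 0, 0, 0⟩ ⟨0, 0, 0, 0, 0, 0, 849822, 0, 0, 0, 0, 0, 0⟩ ⟨0, 0, 0, 0, 0, 0, 849822, 0, 0, 0, 0, 0, 0⟩ ⟨0, 0, 0, 0, 0, 0, 934100, 0, 0, 0, 0, 0, 0⟩ ⟨0, 0, 0, 0, 0, 0, 934100, 0, 0, 0, 0, 0, 0⟩ ⟨162, 1, -695, 6, -1, 223, 1036933, 0, 0, 0, 0, 0, 0⟩))
    (.leaf (.box ⟨123, 1, -512, 8, -4, 219, 894198, 0, 0, 0, 0, 0, 0⟩ ⟨0, 0, 0, 0, 0, 0, 970536, 0, 0, 0, 0, 0, 0⟩ ⟨0, 0, 0, 0, 0, 0, 970536, 0, 0, 0, 0, 0, 0⟩ ⟨0, 0, 0, 0, 0, 0, 1061123, 0, 0, 0, 0, 0, 0⟩ ⟨0, 0, 0, 0, 0, 0, 1061123, 0, 0, 0, 0, 0, 0⟩ ⟨158, 1, -512, 6, -3, 196, 1170362, 0, 0, 0, 0, 0, 0⟩))))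
    (.s1
    (.leaf (.skip 0 8))
    (.s1
    (.leaf (.box ⟨245, 2, -512, 12, -10, 313, 1042059, 0, 0, 0, 0, 0, 32247483197⟩ ⟨0, 0, 0, 0, 0, 0, 1119749, 0, 0, 0, 0, 0, 0⟩ ⟨0, 0, 0, 0, 0, 0, 1119749, 0, 0, 0, 0, 0, 0⟩ ⟨0, 0, 0, 0, 0, 0, 1209955, 0, 0, 0, 0, 0, 0⟩ ⟨0, 0, 0, 0, 0, 0, 1209955, 0, 0, 0, 0, 0, 0⟩ ⟨310, 3, -512, 10, -8, 289, 1315969, 0, 0, 0, 0, 0, 0⟩))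
    (.leaf (.box ⟨233, 2, -512, 11, -14, 308, 1019187, 0, 0, 0, 0, 0, 26719985404⟩ ⟨0, 0, 0, 0, 0, 0, 1102883, 0, 0, 0, 0, 0, 0⟩ ⟨0, 0, 0, 0, 0, 0, 1102883, 0, 0, 0, 0, 0, 0⟩ ⟨0, 0, 0, 0, 0, 0, 1201556, 0, 0, 0, 0, 0, 0⟩ ⟨0, 0, 0, 0, 0, 0, 1201556, 0, 0, 0, 0, 0, 0⟩ ⟨233, 2, -512, 8, -10, 258, 1319618, 0, 0, 0, 0, 0, 0⟩)))))
    (.s0
    (.s1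
    (.leaf (.box ⟨260, 3, -512, 13, 0, 258, 822265, 0, 0, 0, 0, 0, 0⟩ ⟨0, 0, 0, 0, 0, 0, 887491, 0, 0, 0, 0, 0, 0⟩ ⟨0, 0, 0, 0, 0, 0, 887491, 0, 0, 0, 0, 0, 0⟩ ⟨0, 0, 0, 0, 0, 0, 963956, 0, 0, 0, 0, 0, 0⟩ ⟨0, 0, 0, 0, 0, 0, 963956, 0, 0, 0, 0, 0, 0⟩ ⟨434, 4, -512, 12, 0, 267, 1054839, 0, 0, 0, 0, 0, 0⟩))
    (.leaf (.box ⟨245, 1, -512, 12, -7, 249, 791757, 0, 0, 0, 0, 0, 0⟩ ⟨0, 0, 0, 0, 0, 0, 864721, 0, 0, 0, 0, 0, 0⟩ ⟨0, 0, 0, 0, 0, 0, 864721, 0, 0, 0, 0, 0, 0⟩ ⟨0, 0, 0, 0, 0, 0, 952498, 0, 0, 0, 0, 0, 0⟩ ⟨0, 0, 0, 0, 0, 0, 952498, 0, 0, 0, 0, 0, 0⟩ ⟨263, 1, -512, 8, -5, 211, 1060108, 0, 0, 0, 0, 0, 0⟩)))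
    (.leaf (.box ⟨512, 7, -428, 35, -19, 446, 1025906, 0, 0, 0, 0, 0, 138664487120⟩ ⟨0, 0, 0, 0, 0, 0, 1105379, 0, 0, 0, 0, 0, 0⟩ ⟨0, 0, 0, 0, 0, 0, 1105379, 0, 0, 0, 0, 0, 0⟩ ⟨0, 0, 0, 0, 0, 0, 1198199, 0, 0, 0, 0, 0, 0⟩ ⟨0, 0, 0, 0, 0, 0, 1198199, 0, 0, 0, 0, 0, 0⟩ ⟨512, 5, -216, 17, -7, 225, 1308035, 0, 0, 0, 0, 0, 0⟩))))
    (.s2
    (.leaf (.box ⟨512, 4, -128, 25, -13, 221, 799280, 0, 0, 0, 0, 0, 22514402805⟩ ⟨0, 0, 0, 0, 0, 0, 870387, 0, 0, 0, 0, 0, 0⟩ ⟨0, 0, 0, 0, 0, 0, 870387, 0, 0, 0, 0, 0, 0⟩ ⟨0, 0, 0, 0, 0, 0, 955381, 0, 0, 0, 0, 0, 0⟩ ⟨0, 0, 0, 0, 0, 0, 955381, 0, 0, 0, 0, 0, 0⟩ ⟨512, 3, -92, 14, -6, 128, 1058770, 0, 0, 0, 0, 0, 0⟩))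
    (.leaf (.box ⟨512, 3, 75, 21, -13, 144, 793977, 0, 0, 0, 0, 0, 0⟩ ⟨0, 0, 0, 0, 0, 0, 861683, 0, 0, 0, 0, 0, 0⟩ ⟨0, 0, 0, 0, 0, 0, 861683, 0, 0, 0, 0, 0, 0⟩ ⟨0, 0, 0, 0, 0, 0, 942011, 0, 0, 0, 0, 0, 0⟩ ⟨0, 0, 0, 0, 0, 0, 942011, 0, 0, 0, 0, 0, 0⟩ ⟨512, 2, 21, 11, -6, 84, 1038856, 0, 0, 0, 0, 0, 0⟩))))
    (.leaf (.skip 0 8)))
    (.s2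
    (.s0
    (.s2
    (.leaf (.box ⟨512, 2, 173, 17, -11, 87, 765516, 0, 0, 0, 0, 0, 0⟩ ⟨0, 0, 0, 0, 0, 0, 833596, 0, 0, 0, 0, 0, 0⟩ ⟨0, 0, 0, 0, 0, 0, 833596, 0, 0, 0, 0, 0, 0⟩ ⟨0, 0, 0, 0, 0, 0, 914966, 0, 0, 0, 0, 0, 0⟩ ⟨0, 0, 0, 0, 0, 0, 914966, 0, 0, 0, 0, 0, 0⟩ ⟨512, 2, 78, 12, -5, 53, 1013940, 529180069, 212907257, 0, 0, 17513061559, 0⟩))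
    (.leaf (.skip 8 0)))
    (.leaf (.skip 8 0)))
    (.leaf (.skip 8 0))))

/-- A piece of the tree. -/
noncomputable def tree27 : Tree LeafX :=
  .s1
    (.s0
    (.s2
    (.leaf (.box ⟨135, -1, -512, 12, 20, 75, 199698, 0, 0, 0, 0, 0, 0⟩ ⟨0, 0, 0, 0, 0, 0, 229744, 0, 0, 0, 0, 0, 0⟩ ⟨0, 0, 0, 0, 0, 0, 229744, 0, 0, 0, 0, 0, 0⟩ ⟨0, 0, 0, 0, 0, 0, 270430, 0, 0, 0, 0, 0, 0⟩ ⟨0, 0, 0, 0, 0, 0, 270430, 0, 0, 0, 0, 0, 0⟩ ⟨127, -1, -512, 10, 14, 88, 328629, 0, 0, 0, 0, 0, 0⟩))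
    (.leaf (.box ⟨146, -3, -512, 13, 15, 76, 201107, 0, 0, 0, 0, 0, 0⟩ ⟨0, 0, 0, 0, 0, 0, 233166, 0, 0, 0, 0, 0, 0⟩ ⟨0, 0, 0, 0, 0, 0, 233166, 0, 0, 0, 0, 0, 0⟩ ⟨0, 0, 0, 0, 0, 0, 277385, 0, 0, 0, 0, 0, 0⟩ ⟨0, 0, 0, 0, 0, 0, 277385, 0, 0, 0, 0, 0, 0⟩ ⟨118, -2, -512, 7, 9, 86, 342299, 0, 0, 0, 0, 0, 0⟩)))
    (.s2
    (.leaf (.box ⟨126, 1, -512, 13, 16, 104, 324105, 0, 0, 0, 0, 0, 0⟩ ⟨0, 0, 0, 0, 0, 0, 363820, 0, 0, 0, 0, 0, 0⟩ ⟨0, 0, 0, 0, 0, 0, 363820, 0, 0, 0, 0, 0, 0⟩ ⟨0, 0, 0, 0, 0, 0, 414626, 0, 0, 0, 0, 0, 0⟩ ⟨0, 0, 0, 0, 0, 0, 414626, 0, 0, 0, 0, 0, 0⟩ ⟨114, 1, -512, 10, 11, 107, 481925, 0, 0, 0, 0, 0, 0⟩))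
    (.s1
    (.leaf (.box ⟨167, 0, -512, 8, 5, 112, 539684, 0, 0, 0, 0, 0, 0⟩ ⟨154, 0, -512, 11, 7, 111, 404364, 0, 0, 0, 0, 0, 0⟩ ⟨154, 0, -512, 11, 7, 111, 404364, 0, 0, 0, 0, 0, 0⟩ ⟨138, 0, -512, 9, 6, 110, 462991, 0, 0, 0, 0, 0, 0⟩ ⟨138, 0, -512, 9, 6, 110, 462991, 0, 0, 0, 0, 0, 0⟩ ⟨182, 0, -758, 6, 4, 162, 1044399, 0, 0, 0, 0, 0, 0⟩))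
    (.leaf (.box ⟨154, -2, -512, 15, 9, 113, 336138, 0, 0, 0, 0, 0, 0⟩ ⟨0, 0, 0, 0, 0, 0, 385400, 0, 0, 0, 0, 0, 0⟩ ⟨0, 0, 0, 0, 0, 0, 385400, 0, 0, 0, 0, 0, 0⟩ ⟨0, 0, 0, 0, 0, 0, 451580, 0, 0, 0, 0, 0, 0⟩ ⟨0, 0, 0, 0, 0, 0, 451580, 0, 0, 0, 0, 0, 0⟩ ⟨95, -1, -512, 8, 5, 110, 545200, 0, 0, 0, 0, 0, 0⟩)))))
    (.s0
    (.s2
    (.s1
    (.s2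
    (.leaf (.box ⟨120, -2, -512, 7, 24, 82, 198773, 0, 0, 0, 0, 0, 0⟩ ⟨0, 0, 0, 0, 0, 0, 231612, 0, 0, 0, 0, 0, 0⟩ ⟨0, 0, 0, 0, 0, 0, 231612, 0, 0, 0, 0, 0, 0⟩ ⟨0, 0, 0, 0, 0, 0, 277447, 0, 0, 0, 0, 0, 0⟩ ⟨0, 0, 0, 0, 0, 0, 277447, 0, 0, 0, 0, 0, 0⟩ ⟨74, -2, -538, 6, 17, 109, 345900, 0, 0, 0, 0, 0, 0⟩))
    (.leaf (.box ⟨119, -6, -512, 11, 22, 81, 195655, 0, 0, 0, 0, 0, 0⟩ ⟨0, 0, 0, 0, 0, 0, 230793, 0, 0, 0, 0, 0, 0⟩ ⟨0, 0, 0, 0, 0, 0, 230793, 0, 0, 0, 0, 0, 0⟩ ⟨0, 0, 0, 0, 0, 0, 281315, 0, 0, 0, 0, 0, 0⟩ ⟨0, 0, 0, 0, 0, 0, 281315, 0, 0, 0, 0, 0, 0⟩ ⟨100, -3, -849, 6, 21, 162, 360154, 0, 0, 0, 0, 0, 0⟩)))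
    (.leaf (.box ⟨150, -8, -512, 11, 28, 91, 194513, 0, 0, 0, 0, 0, 0⟩ ⟨0, 0, 0, 0, 0, 0, 233369, 0, 0, 0, 0, 0, 0⟩ ⟨0, 0, 0, 0, 0, 0, 233369, 0, 0, 0, 0, 0, 0⟩ ⟨0, 0, 0, 0, 0, 0, 291622, 0, 0, 0, 0, 0, 0⟩ ⟨0, 0, 0, 0, 0, 0, 291622, 0, 0, 0, 0, 0, 0⟩ ⟨116, -4, -635, 6, 18, 135, 388632, 0, 0, 0, 0, 0, 0⟩)))
    (.s1
    (.s2
    (.leaf (.box ⟨118, -5, -512, 8, 15, 81, 262774, 0, 0, 0, 0, 0, 0⟩ ⟨87, -5, -512, 8, 17, 85, 233835, 0, 0, 0, 0, 0, 0⟩ ⟨87, -5, -512, 8, 17, 85, 233835, 0, 0, 0, 0, 0, 0⟩ ⟨66, -4, -530, 6, 14, 92, 293790, 0, 0, 0, 0, 0, 0⟩ ⟨66, -4, -530, 6, 14, 92, 293790, 0, 0, 0, 0, 0, 0⟩ ⟨136, -3, -1302, 6, 14, 239, 719115, 0, 0, 0, 0, 0, 0⟩))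
    (.leaf (.box ⟨106, -6, -512, 9, 15, 79, 277138, 0, 0, 0, 0, 0, 0⟩ ⟨75, -5, -512, 8, 16, 83, 247603, 0, 0, 0, 0, 0, 0⟩ ⟨75, -5, -512, 8, 16, 83, 247603, 0, 0, 0, 0, 0, 0⟩ ⟨68, -4, -512, 7, 13, 88, 315099, 0, 0, 0, 0, 0, 0⟩ ⟨68, -4, -512, 7, 13, 88, 315099, 0, 0, 0, 0, 0, 0⟩ ⟨118, -3, -1132, 6, 11, 203, 778153, 0, 0, 0, 0, 0, 0⟩)))
    (.leaf (.box ⟨139, -14, -512, 14, 20, 80, 253585, 0, 0, 0, 0, 0, 0⟩ ⟨88, -12, -512, 14, 21, 86, 239090, 0, 0, 0, 0, 0, 0⟩ ⟨88, -12, -512, 14, 21, 86, 239090, 0, 0, 0, 0, 0, 0⟩ ⟨73, -8, -512, 11, 16, 91, 316610, 0, 0, 0, 0, 0, 0⟩ ⟨73, -8, -512, 11, 16, 91, 316610, 0, 0, 0, 0, 0, 0⟩ ⟨91, -4, -754, 6, 9, 142, 802551, 0, 0, 1440795, 0, 0,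 0⟩))))
    (.leaf (.box ⟨198, -10, -512, 26, 17, 112, 296784, 0, 0, 0, 0, 0, 0⟩ ⟨0, 0, 0, 0, 0, 0, 346516, 0, 0, 0, 0, 0, 0⟩ ⟨0, 0, 0, 0, 0, 0, 346516, 0, 0, 0, 0, 0, 0⟩ ⟨0, 0, 0, 0, 0, 0, 416269, 0, 0, 0, 0, 0, 0⟩ ⟨0, 0, 0, 0, 0, 0, 416269, 0, 0, 0, 0, 0, 0⟩ ⟨118, -4, -512, 12, 10, 114, 521181, 0, 0, 0, 0, 0, 0⟩)))

/-- A piece of the tree. -/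
noncomputable def tree28 : Tree LeafX :=
  .s1
    (.s2
    (.s0
    (.leaf (.box ⟨137, 3, -512, 16, 7, 143, 577583, 0, 0, 0, 0, 0, 0⟩ ⟨0, 0, 0, 0, 0, 0, 628643, 0, 0, 0, 0, 0, 0⟩ ⟨0, 0, 0, 0, 0, 0, 628643, 0, 0, 0, 0, 0, 0⟩ ⟨0, 0, 0, 0, 0, 0, 689606, 0, 0, 0, 0, 0, 0⟩ ⟨0, 0, 0, 0, 0, 0, 689606, 0, 0, 0, 0, 0, 0⟩ ⟨110, 3, -512, 12, 5, 136, 763662, 0, 0, 0, 0, 0, 0⟩))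
    (.leaf (.box ⟨159, 4, -512, 18, -3, 195, 1038735, 0, 0, 0, 0, 0, 0⟩ ⟨0, 0, 0, 0, 0, 0, 1104672, 0, 0, 0, 0, 0, 0⟩ ⟨0, 0, 0, 0, 0, 0, 1104672, 0, 0, 0, 0, 0, 0⟩ ⟨0, 0, 0, 0, 0, 0, 1179547, 0, 0, 0, 0, 0, 0⟩ ⟨0, 0, 0, 0, 0, 0, 1179547, 0, 0, 0, 0, 0, 0⟩ ⟨140, 5, -512, 14, -3, 174, 1265309, 0, 0, 0, 0, 0, 0⟩)))
    (.s0
    (.s2
    (.leaf (.box ⟨174, 1, -512, 15, -1, 162, 616784, 0, 0, 0, 0, 0, 0⟩ ⟨0, 0, 0, 0, 0, 0, 690583, 0, 0, 0, 0, 0, 0⟩ ⟨0, 0, 0, 0, 0, 0, 690583, 0, 0, 0, 0, 0, 0⟩ ⟨0, 0, 0, 0, 0, 0, 784441, 0, 0, 0, 0, 0, 0⟩ ⟨0, 0, 0, 0, 0, 0, 784441, 0, 0, 0, 0, 0, 0⟩ ⟨135, 1, -512, 9, -1, 146, 907824, 0, 0, 0, 0, 0, 0⟩))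
    (.s0
    (.leaf (.box ⟨138, 0, -512, 10, -2, 163, 672427, 0, 0, 0, 0, 0, 0⟩ ⟨0, 0, 0, 0, 0, 0, 756882, 0, 0, 0, 0, 0, 0⟩ ⟨0, 0, 0, 0, 0, 0, 756882, 0, 0, 0, 0, 0, 0⟩ ⟨0, 0, 0, 0, 0, 0, 865597, 0, 0, 0, 0, 0, 0⟩ ⟨0, 0, 0, 0, 0, 0, 865597, 0, 0, 0, 0, 0, 0⟩ ⟨138, 0, -574, 6, -1, 161, 1010782, 0, 0, 0, 0, 0, 0⟩))
    (.s2
    (.leaf (.box ⟨120, 1, -512, 11, -7, 203, 899650, 0, 0, 0, 0, 0, 0⟩ ⟨0, 0, 0, 0, 0, 0, 1001795, 0, 0, 0, 0, 0, 0⟩ ⟨0, 0, 0, 0, 0, 0, 1001795, 0, 0, 0, 0, 0, 0⟩ ⟨0, 0, 0, 0, 0, 0, 1130105, 0, 0, 0, 0, 0, 0⟩ ⟨0, 0, 0, 0, 0, 0, 1130105, 0, 0, 0, 0, 0, 0⟩ ⟨124, 0, -512, 7, -5, 171, 1296110, 0, 0, 0, 0, 0, 0⟩))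
    (.leaf (.box ⟨167, 0, -512, 12, -11, 230, 935396, 0, 0, 0, 0, 0, 0⟩ ⟨0, 0, 0, 0, 0, 0, 1039413, 0, 0, 0, 0, 0, 0⟩ ⟨0, 0, 0, 0, 0, 0, 1039413, 0, 0, 0, 0, 0, 0⟩ ⟨0, 0, 0, 0, 0, 0, 1169457, 0, 0, 0, 0, 0, 0⟩ ⟨0, 0, 0, 0, 0, 0, 1169457, 0, 0, 0, 0, 0, 0⟩ ⟨171, 0, -512, 7, -6, 185, 1336695, 0, 0, 0, 0, 0, 0⟩)))))
    (.s2
    (.s1
    (.leaf (.box ⟨225, 3, -512, 17, -13, 249, 1195835, 0, 0, 0, 0, 0, 29015227669⟩ ⟨0, 0, 0, 0, 0, 0, 1284472, 0, 0, 0, 0, 0, 0⟩ ⟨0, 0, 0, 0, 0, 0, 1284472, 0, 0, 0, 0, 0, 0⟩ ⟨0, 0, 0, 0, 0, 0, 1387301, 0, 0, 0, 0, 0, 0⟩ ⟨0, 0, 0, 0, 0, 0, 1387301, 0, 0, 0, 0, 0, 0⟩ ⟨204, 3, -512, 12, -10, 214, 1508025, 0, 0, 0, 0, 0, 0⟩))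
    (.leaf (.box ⟨213, 2, -512, 17, -17, 251, 1110145, 0, 0, 0, 0, 0, 0⟩ ⟨0, 0, 0, 0, 0, 0, 1218002, 0, 0, 0, 0, 0, 0⟩ ⟨0, 0, 0, 0, 0, 0, 1218002, 0, 0, 0, 0, 0, 0⟩ ⟨0, 0, 0, 0, 0, 0, 1349070, 0, 0, 0, 0, 0, 0⟩ ⟨0, 0, 0, 0, 0, 0, 1349070, 0, 0, 0, 0, 0, 0⟩ ⟨165, 2, -512, 12, -11, 204, 1511749, 0, 0, 0, 0, 0, 0⟩)))
    (.s2
    (.s1
    (.leaf (.box ⟨292, 3, -512, 21, -24, 330, 1236252, 0, 0, 0, 0, 0, 70471941275⟩ ⟨0, 0, 0, 0, 0, 0, 1341224, 0, 0, 0, 0, 0, 0⟩ ⟨0, 0, 0, 0, 0, 0, 1341224, 0, 0, 0, 0, 0, 0⟩ ⟨0, 0, 0, 0, 0, 0, 1465676, 0, 0, 0, 0, 0, 0⟩ ⟨0, 0, 0, 0, 0, 0, 1465676, 0, 0, 0, 0, 0, 0⟩ ⟨262, 3, -512, 14, -16, 267, 1615585, 0, 0, 0, 0, 0, 0⟩))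
    (.leaf (.box ⟨269, 1, -512, 23, -27, 319, 1182557, 0, 0, 0, 0, 0, 0⟩ ⟨0, 0, 0, 0, 0, 0, 1308456, 0, 0, 0, 0, 0, 0⟩ ⟨0, 0, 0, 0, 0, 0, 1308456, 0, 0, 0, 0, 0, 0⟩ ⟨0, 0, 0, 0, 0, 0, 1464355, 0, 0, 0, 0, 0, 0⟩ ⟨0, 0, 0, 0, 0, 0, 1464355, 0, 0, 0, 0, 0, 0⟩ ⟨205, 1, -512, 12, -15, 235, 1662428, 0, 0, 0, 0, 0, 0⟩)))
    (.leaf (.box ⟨459, 3, -512, 36, -40, 434, 1226770, 0, 0, 0, 0, 0, 105521757648⟩ ⟨0, 0, 0, 0, 0, 0, 1349486, 0, 0, 0, 0, 0, 0⟩ ⟨0, 0, 0, 0, 0, 0, 1349486, 0, 0, 0, 0, 0, 0⟩ ⟨0, 0, 0, 0, 0, 0, 1499480, 0, 0, 0, 0, 0, 0⟩ ⟨0, 0, 0, 0, 0, 0, 1499480, 0, 0, 0, 0, 0, 0⟩ ⟨425, 2, -512, 23, -21, 299, 1686988, 0, 0, 0, 0, 0, 0⟩))))))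
    (.s0
    (.leaf (.box ⟨212, -4, -512, 28, 4, 158, 520873, 0, 0, 0, 0, 0, 0⟩ ⟨0, 0, 0, 0, 0, 0, 589945, 0, 0, 0, 0, 0, 0⟩ ⟨0, 0, 0, 0, 0, 0, 589945, 0, 0, 0, 0, 0, 0⟩ ⟨0, 0, 0, 0, 0, 0, 680136, 0, 0, 0, 0, 0, 0⟩ ⟨0, 0, 0, 0, 0, 0, 680136, 0, 0, 0, 0, 0, 0⟩ ⟨140, -3, -512, 16, 3, 142, 802880, 0, 0, 0, 0, 0, 0⟩))
    (.leaf (.box ⟨375, -1, -512, 38, -12, 228, 918350, 0, 0, 0, 0, 0, 0⟩ ⟨0, 0, 0, 0, 0, 0, 1012951, 0, 0, 0, 0, 0, 0⟩ ⟨0, 0, 0, 0, 0, 0, 1012951, 0, 0, 0, 0, 0, 0⟩ ⟨0, 0, 0, 0, 0, 0, 1129279, 0, 0, 0, 0, 0, 0⟩ ⟨0, 0, 0, 0, 0, 0, 1129279, 0, 0, 0, 0, 0, 0⟩ ⟨264, -1, -512, 23, -6, 185, 1275791, 0, 0, 0, 0, 0, 0⟩)))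

/-- A piece of the tree. -/
noncomputable def tree29 : Tree LeafX :=
  .s1
    (.s2
    (.s0
    (.s0
    (.leaf (.box ⟨90, -3, -512, 10, 12, 71, 229343, 0, 0, 0, 0, 482943427, 0⟩ ⟨0, 0, 0, 0, 0, 0, 264645, 0, 0, 0, 0, 0, 0⟩ ⟨0, 0, 0, 0, 0, 0, 264645, 0, 0, 0, 0, 0, 0⟩ ⟨0, 0, 0, 0, 0, 0, 312791, 0, 0, 0, 0, 0, 0⟩ ⟨0, 0, 0, 0, 0, 0, 312791, 0, 0, 0, 0, 0, 0⟩ ⟨77, -2, -512, 7, 7, 81, 382350, 0, 0, 0, 0, 0, 0⟩))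
    (.s1
    (.leaf (.box ⟨108, -1, -512, 6, 8, 87, 309794, 0, 0, 0, 0, 0, 0⟩ ⟨0, 0, 0, 0, 0, 0, 352411, 0, 0, 0, 0, 0, 0⟩ ⟨0, 0, 0, 0, 0, 0, 352411, 0, 0, 0, 0, 0, 0⟩ ⟨0, 0, 0, 0, 0, 0, 408622, 0, 0, 0, 0, 0, 0⟩ ⟨0, 0, 0, 0, 0, 0, 408622, 0, 0, 0, 0, 0, 0⟩ ⟨125, -1, -885, 6, 9, 156, 486168, 0, 0, 0, 0, 0, 0⟩))
    (.s0
    (.leaf (.box ⟨41, -3, -512, 8, 11, 81, 304795, 0, 0, 0, 0, 712478628, 0⟩ ⟨0, 0, 0, 0, 0, 0, 352297, 0, 0, 0, 0, 0, 0⟩ ⟨0, 0, 0, 0, 0, 0, 352297, 0, 0, 0, 0, 0, 0⟩ ⟨0, 0, 0, 0, 0, 0, 417339, 0, 0, 0, 0, 0, 0⟩ ⟨0, 0, 0, 0, 0, 0, 417339, 0, 0, 0, 0, 0, 0⟩ ⟨43, -2, -730, 6, 10, 126, 511834, 0, 0, 0, 0, 0, 0⟩))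
    (.leaf (.box ⟨50, -2, -512, 8, 10, 89, 353692, 0, 0, 0, 0, 718383713, 0⟩ ⟨0, 0, 0, 0, 0, 0, 407445, 0, 0, 0, 0, 0, 0⟩ ⟨0, 0, 0, 0, 0, 0, 407445, 0, 0, 0, 0, 0, 0⟩ ⟨0, 0, 0, 0, 0, 0, 480464, 0, 0, 0, 0, 0, 0⟩ ⟨0, 0, 0, 0, 0, 0, 480464, 0, 0, 0, 0, 0, 0⟩ ⟨40, -2, -668, 6, 8, 123, 585369, 0, 0, 0, 0, 0, 0⟩)))))
    (.s0
    (.s0
    (.s1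
    (.leaf (.box ⟨108, -1, -512, 7, 6, 105, 417874, 0, 0, 0, 0, 0, 0⟩ ⟨0, 0, 0, 0, 0, 0, 472081, 0, 0, 0, 0, 0, 0⟩ ⟨0, 0, 0, 0, 0, 0, 472081, 0, 0, 0, 0, 0, 0⟩ ⟨0, 0, 0, 0, 0, 0, 542448, 0, 0, 0, 0, 0, 0⟩ ⟨0, 0, 0, 0, 0, 0, 542448, 0, 0, 0, 0, 0, 0⟩ ⟨105, -1, -850, 6, 6, 170, 637466, 0, 0, 0, 0, 0, 0⟩))
    (.leaf (.box ⟨64, -2, -512, 8, 9, 99, 411076, 0, 0, 0, 0, 0, 0⟩ ⟨0, 0, 0, 0, 0, 0, 471798, 0, 0, 0, 0, 0, 0⟩ ⟨0, 0, 0, 0, 0, 0, 471798, 0, 0, 0, 0, 0, 0⟩ ⟨0, 0, 0, 0, 0, 0, 553567, 0, 0, 0, 0, 0, 0⟩ ⟨0, 0, 0, 0, 0, 0, 553567, 0, 0, 0, 0, 0, 0⟩ ⟨48, -2, -624, 6, 7, 123, 669621, 0, 0, 0, 0, 0, 0⟩)))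
    (.s2
    (.leaf (.box ⟨92, -1, -512, 8, 5, 113, 476045, 0, 0, 0, 0, 0, 0⟩ ⟨0, 0, 0, 0, 0, 0, 539776, 0, 0, 0, 0, 0, 0⟩ ⟨0, 0, 0, 0, 0, 0, 539776, 0, 0, 0, 0, 0, 0⟩ ⟨0, 0, 0, 0, 0, 0, 623208, 0, 0, 0, 0, 0, 0⟩ ⟨0, 0, 0, 0, 0, 0, 623208, 0, 0, 0, 0, 0, 0⟩ ⟨79, -1, -642, 6, 4, 136, 737147, 0, 0, 0, 0, 0, 0⟩))
    (.leaf (.box ⟨147, -2, -512, 11, 5, 119, 528356, 0, 0, 0, 0, 0, 0⟩ ⟨0, 0, 0, 0, 0, 0, 592011, 0, 0, 0, 0, 0, 0⟩ ⟨0, 0, 0, 0, 0, 0, 592011, 0, 0, 0, 0, 0, 0⟩ ⟨0, 0, 0, 0, 0, 0, 673105, 0, 0, 0, 0, 0, 0⟩ ⟨0, 0, 0, 0, 0, 0, 673105, 0, 0, 0, 0, 0, 0⟩ ⟨91, -1, -512, 7, 3, 112, 779940, 0, 0, 0, 0, 0, 0⟩))))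
    (.s2
    (.leaf (.box ⟨166, -1, -512, 11, 2, 140, 551920, 0, 0, 0, 0, 0, 0⟩ ⟨0, 0, 0, 0, 0, 0, 622829, 0, 0, 0, 0, 0, 0⟩ ⟨0, 0, 0, 0, 0, 0, 622829, 0, 0, 0, 0, 0, 0⟩ ⟨0, 0, 0, 0, 0, 0, 714643, 0, 0, 0, 0, 0, 0⟩ ⟨0, 0, 0, 0, 0, 0, 714643, 0, 0, 0, 0, 0, 0⟩ ⟨126, -1, -512, 7, 1, 126, 838206, 0, 0, 0, 0, 0, 0⟩))
    (.leaf (.box ⟨278, -2, -512, 17, 1, 155, 607463, 0, 0, 0, 0, 0, 0⟩ ⟨0, 0, 0, 0, 0, 0, 678078, 0, 0, 0, 0, 0, 0⟩ ⟨0, 0, 0, 0, 0, 0, 678078, 0, 0, 0, 0, 0, 0⟩ ⟨0, 0, 0, 0, 0, 0, 767270, 0, 0, 0, 0, 0, 0⟩ ⟨0, 0, 0, 0, 0, 0, 767270, 0, 0, 0, 0, 0, 0⟩ ⟨194, -1, -512, 9, 1, 133, 883479, 0, 0, 0, 0, 0, 0⟩)))))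
    (.s2
    (.s0
    (.s1
    (.leaf (.box ⟨158, -1, -512, 8, 9, 84, 284491, 0, 0, 0, 0, 761533161, 0⟩ ⟨0, 0, 0, 0, 0, 0, 319866, 0, 0, 0, 0, 0, 0⟩ ⟨0, 0, 0, 0, 0, 0, 319866, 0, 0, 0, 0, 0, 0⟩ ⟨0, 0, 0, 0, 0, 0, 365288, 0, 0, 0, 0, 0, 0⟩ ⟨0, 0, 0, 0, 0, 0, 365288, 0, 0, 0, 0, 0, 0⟩ ⟨112, -1, -540, 6, 6, 92, 425744, 0, 0, 0, 0, 0, 0⟩))
    (.leaf (.box ⟨109, -3, -512, 10, 14, 79, 291113, 0, 0, 0, 0, 2156181826, 0⟩ ⟨0, 0, 0, 0, 0, 0, 331635, 0, 0, 0, 0, 0, 0⟩ ⟨0, 0, 0, 0, 0, 0, 331635, 0, 0, 0, 0, 0, 0⟩ ⟨0, 0, 0, 0, 0, 0, 385262, 0, 0, 0, 0, 0, 0⟩ ⟨0, 0, 0, 0, 0, 0, 385262, 0, 0, 0, 0, 0, 0⟩ ⟨73, -2, -512, 7, 9, 87, 459577, 0, 0, 0, 0, 404882881, 0⟩)))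
    (.leaf (.box ⟨469, -5, -512, 31, 4, 141, 503127, 0, 0, 0, 0, 21950496646, 0⟩ ⟨0, 0, 0, 0, 0, 0, 563558, 0, 0, 0, 0, 0, 0⟩ ⟨0, 0, 0, 0, 0, 0, 563558, 0, 0, 0, 0, 0, 0⟩ ⟨0, 0, 0, 0, 0, 0, 640485, 0, 0, 0, 0, 0, 0⟩ ⟨0, 0, 0, 0, 0, 0, 640485, 0, 0, 0, 0, 0, 0⟩ ⟨306, -2, -512, 16, 3, 125, 741735, 0, 0, 0, 0, 5451715613, 0⟩)))
    (.leaf (.skip 8 0))))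
    (.s2
    (.s0
    (.s2
    (.leaf (.box ⟨121, -13, -512, 18, 22, 76, 230650, 0, 0, 0, 0, 0, 0⟩ ⟨0, 0, 0, 0, 0, 0, 272811, 0, 0, 0, 0, 0, 0⟩ ⟨0, 0, 0, 0, 0, 0, 272811, 0, 0, 0, 0, 0, 0⟩ ⟨0, 0, 0, 0, 0, 0, 333832, 0, 0, 0, 0, 0, 0⟩ ⟨0, 0, 0, 0, 0, 0, 333832, 0, 0, 0, 0, 0, 0⟩ ⟨60, -5, -512, 10, 11, 91, 430016, 0, 0, 0, 0, 0, 0⟩))
    (.leaf (.box ⟨108, -10, -512, 18, 21, 75, 264449, 0, 0, 0, 0, 1242314661, 0⟩ ⟨0, 0, 0, 0, 0, 0, 309493, 0, 0, 0, 0, 0, 0⟩ ⟨0, 0, 0, 0, 0, 0, 309493, 0, 0, 0, 0, 0, 0⟩ ⟨0, 0, 0, 0, 0, 0, 373031, 0, 0, 0, 0, 0, 0⟩ ⟨0, 0, 0, 0, 0, 0, 373031, 0, 0, 0, 0, 0, 0⟩ ⟨71, -4, -512, 11, 12, 91, 469397, 0, 0, 0, 0, 371974106, 0⟩)))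
    (.s2
    (.leaf (.box ⟨176, -11, -512, 23, 15, 106, 413988, 0, 0, 0, 0, 1330275746, 0⟩ ⟨0, 0, 0, 0, 0, 0, 482719, 0, 0, 0, 0, 0, 0⟩ ⟨0, 0, 0, 0, 0, 0, 482719, 0, 0, 0, 0, 0, 0⟩ ⟨0, 0, 0, 0, 0, 0, 578815, 0, 0, 0, 0, 0, 0⟩ ⟨0, 0, 0, 0, 0, 0, 578815, 0, 0, 0, 0, 0, 0⟩ ⟨94, -4, -512, 11, 8, 110, 722680, 0, 0, 0, 0, 0, 0⟩))
    (.leaf (.box ⟨165, -9, -512, 21, 17, 103, 485716, 0, 0, 0, 0, 3817423472, 0⟩ ⟨0, 0, 0, 0, 0, 0, 563214, 0, 0, 0, 0, 0, 0⟩ ⟨0, 0, 0, 0, 0, 0, 563214, 0, 0, 0, 0, 0, 0⟩ ⟨0, 0, 0, 0, 0, 0, 670137, 0, 0, 0, 0, 0, 0⟩ ⟨0, 0, 0, 0, 0, 0, 670137, 0, 0, 0, 0, 0, 0⟩ ⟨104, -4, -512, 12, 10, 110, 827170, 0, 0, 0, 0, 0, 0⟩))))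
    (.leaf (.skip 8 0)))

/-- A piece of the tree. -/
noncomputable def tree30 : Tree LeafX :=
  .s1
    (.s2
    (.s0
    (.s2
    (.s0
    (.leaf (.box ⟨251, -1, -512, 14, -6, 194, 736456, 0, 0, 0, 0, 0, 0⟩ ⟨0, 0, 0, 0, 0, 0, 822921, 0, 0, 0, 0, 0, 0⟩ ⟨0, 0, 0, 0, 0, 0, 822921, 0, 0, 0, 0, 0, 0⟩ ⟨0, 0, 0, 0, 0, 0, 932389, 0, 0, 0, 0, 0, 0⟩ ⟨0, 0, 0, 0, 0, 0, 932389, 0, 0, 0, 0, 0, 0⟩ ⟨207, -1, -512, 9, -3, 158, 1075449, 0, 0, 0, 0, 0, 0⟩))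
    (.leaf (.box ⟨424, 0, -512, 22, -19, 300, 970263, 0, 0, 0, 0, 0, 0⟩ ⟨0, 0, 0, 0, 0, 0, 1073451, 0, 0, 0, 0, 0, 0⟩ ⟨0, 0, 0, 0, 0, 0, 1073451, 0, 0, 0, 0, 0, 0⟩ ⟨0, 0, 0, 0, 0, 0, 1201197, 0, 0, 0, 0, 0, 0⟩ ⟨0, 0, 0, 0, 0, 0, 1201197, 0, 0, 0, 0, 0, 0⟩ ⟨344, 0, -512, 14, -9, 213, 1363456, 0, 0, 0, 0, 0, 0⟩)))
    (.leaf (.box ⟨512, -3, -236, 35, -12, 168, 794262, 0, 0, 0, 0, 384316856, 0⟩ ⟨0, 0, 0, 0, 0, 0, 879614, 0, 0, 0, 0, 0, 0⟩ ⟨0, 0, 0, 0, 0, 0, 879614, 0, 0, 0, 0, 0, 0⟩ ⟨0, 0, 0, 0, 0, 0, 985518, 0, 0, 0, 0, 0, 0⟩ ⟨0, 0, 0, 0, 0, 0, 985518, 0, 0, 0, 0, 0, 0⟩ ⟨512, -2, -385, 24, -8, 166, 1120413, 0, 0, 0, 0, 0, 0⟩)))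
    (.s2
    (.leaf (.box ⟨512, 2, -108, 35, -28, 248, 1259600, 0, 0, 0, 0, 0, 0⟩ ⟨0, 0, 0, 0, 0, 0, 1379878, 0, 0, 0, 0, 0, 0⟩ ⟨0, 0, 0, 0, 0, 0, 1379878, 0, 0, 0, 0, 0, 0⟩ ⟨0, 0, 0, 0, 0, 0, 1525550, 0, 0, 0, 0, 0, 0⟩ ⟨0, 0, 0, 0, 0, 0, 1525550, 0, 0, 0, 0, 0, 0⟩ ⟨512, 1, -209, 23, -16, 189, 1705609, 0, 0, 0, 0, 0, 0⟩))
    (.leaf (.box ⟨512, 0, 109, 26, -19, 130, 1290901, 0, 0, 0, 0, 0, 0⟩ ⟨0, 0, 0, 0, 0, 0, 1408834, 0, 0, 0, 0, 0, 0⟩ ⟨0, 0, 0, 0, 0, 0, 1408834, 0, 0, 0, 0, 0, 0⟩ ⟨0, 0, 0, 0, 0, 0, 1550480, 0, 0, 0, 0, 0, 0⟩ ⟨0, 0, 0, 0, 0, 0, 1550480, 0, 0, 0, 0, 0, 0⟩ ⟨512, 0, -14, 18, -11, 104, 1723793, 0, 0, 0, 0, 0, 0⟩))))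
    (.leaf (.skip 8 0)))
    (.s0
    (.s2
    (.leaf (.box ⟨333, -11, -512, 35, 5, 169, 745969, 0, 0, 0, 0, 23844596959, 0⟩ ⟨0, 0, 0, 0, 0, 0, 855401, 0, 0, 0, 0, 0, 0⟩ ⟨0, 0, 0, 0, 0, 0, 855401, 0, 0, 0, 0, 0, 0⟩ ⟨0, 0, 0, 0, 0, 0, 1002458, 0, 0, 0, 0, 0, 0⟩ ⟨0, 0, 0, 0, 0, 0, 1002458, 0, 0, 0, 0, 0, 0⟩ ⟨222, -5, -512, 17, 4, 147, 1210575, 0, 0, 0, 0, 0, 0⟩))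
    (.leaf (.skip 8 0)))
    (.leaf (.skip 8 0)))

theorem parts1 :
    (runPathS conQ supQ (fun n Qs i d x => leafR conQ seg n Qs i d x) [.d0 true, .d1 false, .d2 true, .d0 false, .d1 false] tree24 0 0 0
      (joinS (lay.B * lay.size) rootQ) = true) ∧
    (runPathS conQ supQ (fun n Qs i d x => leafR conQ seg n Qs i d x) [.d0 true, .d1 false, .d2 true, .d0 false, .d1 true] tree25 0 0 0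
      (joinS (lay.B * lay.size) rootQ) = true) ∧
    (runPathS conQ supQ (fun n Qs i d x => leafR conQ seg n Qs i d x) [.d0 true, .d1 false, .d2 true, .d0 true] tree26 0 0 0
      (joinS (lay.B * lay.size) rootQ) = true) ∧
    (runPathS conQ supQ (fun n Qs i d x => leafR conQ seg n Qs i d x) [.d0 true, .d1 true, .d2 false, .d0 false] tree27 0 0 0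
      (joinS (lay.B * lay.size) rootQ) = true) ∧
    (runPathS conQ supQ (fun n Qs i d x => leafR conQ seg n Qs i d x) [.d0 true, .d1 true, .d2 false, .d0 true] tree28 0 0 0
      (joinS (lay.B * lay.size) rootQ) = true) ∧
    (runPathS conQ supQ (fun n Qs i d x => leafR conQ seg n Qs i d x) [.d0 true, .d1 true, .d2 true, .d0 false] tree29 0 0 0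
      (joinS (lay.B * lay.size) rootQ) = true) ∧
    (runPathS conQ supQ (fun n Qs i d x => leafR conQ seg n Qs i d x) [.d0 true, .d1 true, .d2 true, .d0 true] tree30 0 0 0
      (joinS (lay.B * lay.size) rootQ) = true) :=
  ⟨by decide +kernel,
  by decide +kernel,
  by decide +kernel,
  by decide +kernel,
  by decide +kernel,
  by decide +kernel,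
  by decide +kernel⟩

end Vale.Agent.P098.Six.S15
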